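import Vale.Agent.P204.Full.Base.Fields
import Vale.Agent.P204.Full.Interfaces

/-!
# P204 Bridge: alternating maps and bilinear fields
-/

open scoped Manifold ContDiff Topology
open Set Filter

noncomputable section

namespace Vale.Agent.P204.Full.Bridge

universe u

open ContinuousAlternatingMap Fin

/-- An alternating map as a bilinear form. -/
def toBil (w : R4 [⋀^Fin 2]→L[ℝ] ℝ) : Bil :=
  ((ContinuousAlternatingMap.ofSubsingletonLIE (𝕜 := ℝ) (E := R4) (F := ℝ) (0 : Fin 1)).symm
    |>.toContinuousLinearEquiv.toContinuousLinearMap).comp w.curryLeft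

@[simp] lemma toBil_apply (w : R4 [⋀^Fin 2]→L[ℝ] ℝ) (u v : R4) : toBil w u v = w ![u, v] := by
  show w (Matrix.vecCons u fun _ => v) = _
  congr 1
  funext i; fin_cases i <;> rfl

lemma isAlt_toBil (w : R4 [⋀^Fin 2]→L[ℝ] ℝ) : IsAlt (toBil w) := fun u v => by
  simp only [toBil_apply]
  have h := w.toAlternatingMap.map_swap ![v, u] (show (0 : Fin 2) ≠ 1 by decide)
  have e : (![v, u] ∘ Equiv.swap (0 : Fin 2) 1 : Fin 2 → R4) = ![u, v] := by
    funext i; fin_cases i <;> simp
  rwa [e] at h

/-- A bilinear form as an alternating map, halved. -/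
def toAltCLM : Bil →L[ℝ] R4 [⋀^Fin 2]→L[ℝ] ℝ :=
  (2⁻¹ : ℝ) • (ContinuousAlternatingMap.alternatizeUncurryFinCLM (n := 1) ℝ R4 ℝ).comp
    (ContinuousLinearMap.postcomp R4
      (ContinuousAlternatingMap.ofSubsingletonLIE (𝕜 := ℝ) (E := R4) (F := ℝ)
        (0 : Fin 1)).toContinuousLinearEquiv.toContinuousLinearMap)

lemma toAltCLM_apply {b : Bil} (hb : IsAlt b) (u v : R4) : toAltCLM b ![u, v] = b u v := by
  show (2⁻¹ : ℝ) * ContinuousAlternatingMap.alternatizeUncurryFin _ ![u, v] = _
  rw [alternatizeUncurryFin_apply]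
  simp [Fin.sum_univ_two, Fin.removeNth, hb v u]
  ring

lemma contDiffOn_toBil {f : R4 → R4 [⋀^Fin 2]→L[ℝ] ℝ} {s : Set R4} (hf : ContDiffOn ℝ ∞ f s) :
    ContDiffOn ℝ ∞ (fun y => toBil (f y)) s := by
  rw [contDiffOn_clm_apply]
  intro u
  rw [contDiffOn_clm_apply]
  intro v
  simp only [toBil_apply]
  exact hf.continuousLinearMap_comp (ContinuousAlternatingMap.apply ℝ R4 ℝ ![u, v])

/-- The exterior derivative is `d2At` of the associated bilinear field. -/
lemma extDeriv_eq_d2At {f : R4 → R4 [⋀^Fin 2]→L[ℝ] ℝ} {θ : R4 → Bil} {y : R4}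
    (hf : DifferentiableAt ℝ f y) (hθ : DifferentiableAt ℝ θ y)
    (h : ∀ᶠ z in 𝓝 y, ∀ u v, f z ![u, v] = θ z u v) (u v w : R4) :
    extDeriv f y ![u, v, w] = d2At θ y u v w := by
  have e : ∀ a p q, fderiv ℝ (fun z => f z ![p, q]) y a = fderiv ℝ θ y a p q := fun a p q => by
    rw [Filter.EventuallyEq.fderiv_eq (h.mono fun z hz => hz p q), Base.fderiv_apply2 hθ]
  rw [extDeriv_apply hf, d2At, ← e, ← e, ← e]
  have e0 : Fin.removeNth 0 ![u, v, w] = ![v, w] := by funext i; fin_cases i <;> rfl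
  have e1 : Fin.removeNth 1 ![u, v, w] = ![u, w] := by funext i; fin_cases i <;> rfl
  have e2 : Fin.removeNth 2 ![u, v, w] = ![u, v] := by funext i; fin_cases i <;> rfl
  rw [Fin.sum_univ_three, e0, e1, e2]
  simp
  ring

variable {X : Type u} [TopologicalSpace X] [ChartedSpace R4 X]

lemma formInChart_apply (form : TwoForm X) (x₀ : X) (y u v : R4) :
    formInChart form x₀ y ![u, v] =
      form ((chartAt R4 x₀).symm y) ![dsymm (chartAt R4 x₀) y u, dsymm (chartAt R4 x₀) y v] := by
  show form ((chartAt R4 x₀).symm y) (dsymm (chartAt R4 x₀) y ∘ ![u, v]) = _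
  congr 1
  funext i; fin_cases i <;> rfl

lemma formInChart_toBil (form : TwoForm X) (x₀ : X) (y : R4) :
    view2 (chartAt R4 x₀) (fun x => toBil (form x)) y = toBil (formInChart form x₀ y) := by
  ext u v
  exact ((toBil_apply _ _ _).trans (formInChart_apply form x₀ y u v).symm).trans
    (toBil_apply _ _ _).symm

/-- Translation of a taming symplectic form to a field. -/
theorem bridgeIn : BridgeInStatement.{u} := by
  intro X _ _ _ _ _ J form hform htame
  obtain ⟨hsm, hcl, -⟩ := hform
  refine ⟨fun x => toBil (form x), ⟨⟨fun x => isAlt_toBil _, fun x₀ => ?_⟩,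
    fun x₀ y hy u v w => ?_⟩, fun x v hv => (htame x v hv).trans_eq (toBil_apply _ _ _).symm⟩
  · exact (contDiffOn_toBil (hsm x₀)).congr fun y _ => formInChart_toBil form x₀ y
  · have hd := ((contDiffOn_toBil (hsm x₀)).congr fun z _ => formInChart_toBil form x₀ z).contDiffAt
      ((chartAt R4 x₀).open_target.mem_nhds hy)
    rw [← extDeriv_eq_d2At (((hsm x₀).contDiffAt
      ((chartAt R4 x₀).open_target.mem_nhds hy)).differentiableAt (by simp))
      (hd.differentiableAt (by simp))
      (Eventually.of_forall fun z p q => by rw [formInChart_toBil form x₀ z, toBil_apply]) u v w,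
      hcl x₀ y hy]
    rfl

/-- Translation of a closed invariant positive field to a compatible symplectic form. -/
theorem bridgeOut : BridgeOutStatement.{u} := by
  intro X _ _ _ _ _ J θ hθ hinv hpos
  let form : TwoForm X := fun x => toAltCLM (θ x)
  have happ : ∀ (x : X) (p q : R4), form x ![p, q] = θ x p q := fun x p q =>
    toAltCLM_apply (hθ.1.1 x) p q
  have hview : ∀ x₀ y p q, formInChart form x₀ y ![p, q] = view2 (chartAt R4 x₀) θ y p q :=
    fun x₀ y p q => by
      rw [formInChart_apply]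
      exact happ _ _ _
  have heq : ∀ x₀ y, formInChart form x₀ y = toAltCLM (view2 (chartAt R4 x₀) θ y) := fun x₀ y => by
    ext m
    rw [show m = ![m 0, m 1] by funext i; fin_cases i <;> rfl, hview]
    exact (toAltCLM_apply (Base.isAlt_pullBil (hθ.1.1 _) _) _ _).symm
  have hsm : ∀ x₀, ContDiffOn ℝ ∞ (formInChart form x₀) (chartAt R4 x₀).target := fun x₀ =>
    (Base.cdOn_clm (E := Bil) toAltCLM (hθ.1.2 x₀)).congr fun y _ => heq x₀ y
  have htame : Tames form J := fun x v hv => (hpos x v hv).trans_eq (happ x v (J x v)).symm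
  refine ⟨form, ⟨hsm, fun x₀ y hy => ?_, htame.nondegenerate⟩, htame, fun x u v => ?_⟩
  · ext m
    rw [show m = ![m 0, m 1, m 2] by funext i; fin_cases i <;> rfl,
      extDeriv_eq_d2At (θ := view2 (chartAt R4 x₀) θ)
        (((hsm x₀).contDiffAt ((chartAt R4 x₀).open_target.mem_nhds hy)).differentiableAt (by simp))
        (((hθ.1.2 x₀).contDiffAt
          ((chartAt R4 x₀).open_target.mem_nhds hy)).differentiableAt (by simp))
        (Eventually.of_forall fun z p q => hview x₀ z p q)]
    exact hθ.2 x₀ y hy _ _ _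
  · exact ((happ x _ _).trans (hinv x u v)).trans (happ x u v).symm

end Vale.Agent.P204.Full.Bridge
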