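import Vale.Agent.P204.Full.Bridge.Pointwise
import Vale.Agent.P204.Full.Common.Linear
import Vale.Agent.P204.Full.Interfaces

/-!
# P204 Geo: a positive invariant form and a finite oriented atlas
-/

open scoped Manifold ContDiff Topology
open Set Filter

noncomputable section

namespace Vale.Agent.P204.Full.Bridge

universe u

open Base

variable {X : Type u} [TopologicalSpace X] [ChartedSpace R4 X] [IsManifold 𝓘(ℝ, R4) ∞ X]

lemma viewJ_sq {J : X → Endo} (hJ : IsAlmostComplex (X := X) J)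
    {c : OpenPartialHomeomorph X R4} (hc : Atl c) {y : R4} (hy : y ∈ c.target) (v : R4) :
    viewJ J c y (viewJ J c y v) = -v := by
  have h1 : dsymm c y (viewJ J c y v) = J (c.symm y) (dsymm c y v) :=
    DFunLike.congr_fun (dsymm_viewJ J hc hy) v
  have h2 : dchart c (c.symm y) (dsymm c y v) = v :=
    DFunLike.congr_fun (dchart_comp_dsymm hc hy) v
  show dchart c (c.symm y) (J (c.symm y) (dsymm c y (viewJ J c y v))) = -v
  rw [h1]
  have h3 : J (c.symm y) (J (c.symm y) (dsymm c y v)) = -(dsymm c y v) := hJ.2 _ _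
  rw [h3, map_neg, h2]

lemma dchart_J (J : X → Endo) {c : OpenPartialHomeomorph X R4} (hc : Atl c) {x : X}
    (hx : x ∈ c.source) (v : R4) :
    dchart c x (J x v) = viewJ J c (c x) (dchart c x v) := by
  show _ = dchart c (c.symm (c x)) (J (c.symm (c x)) (dsymm c (c x) (dchart c x v)))
  rw [c.left_inv hx]
  have : dsymm c (c x) (dchart c x v) = v := DFunLike.congr_fun (dsymm_comp_dchart hc hx) v
  rw [this]

lemma dchart_ne_zero {c : OpenPartialHomeomorph X R4} (hc : Atl c) {x : X} (hx : x ∈ c.source)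
    {v : R4} (hv : v ≠ 0) : dchart c x v ≠ 0 := fun h => by
  have := DFunLike.congr_fun (dsymm_comp_dchart hc hx) v
  rw [ContinuousLinearMap.comp_apply, h, map_zero] at this
  exact hv this.symm

lemma dsymm_ne_zero {c : OpenPartialHomeomorph X R4} (hc : Atl c) {y : R4} (hy : y ∈ c.target)
    {v : R4} (hv : v ≠ 0) : dsymm c y v ≠ 0 := fun h => by
  have := DFunLike.congr_fun (dchart_comp_dsymm hc hy) v
  rw [ContinuousLinearMap.comp_apply, h, map_zero] at this
  exact hv this.symm

variable [T2Space X]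

/-- Near every point a smooth semipositive invariant form which is positive there. -/
lemma exists_local_form {J : X → Endo} (hJ : IsAlmostComplex (X := X) J) (x₀ : X) :
    ∃ θ : X → Bil, Smooth2 θ ∧ (∀ x u v, θ x (J x u) (J x v) = θ x u v) ∧
      (∀ x v, 0 ≤ θ x v (J x v)) ∧
      ∃ U ∈ 𝓝 x₀, ∀ x ∈ U, ∀ v : R4, v ≠ 0 → 0 < θ x v (J x v) := by
  set c := chartAt R4 x₀ with hcdef
  have hc : Atl c := atl_chartAt x₀
  have hx₀ : x₀ ∈ c.source := mem_chart_source R4 x₀
  obtain ⟨ε, hε, hball⟩ := Metric.isOpen_iff.1 c.open_target (c x₀) (c.map_source hx₀)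
  let f : ContDiffBump (c x₀) := ⟨ε / 4, ε / 2, by linarith, by linarith⟩
  have hfsub : tsupport f ⊆ c.target := by
    rw [f.tsupport_eq]
    exact (Metric.closedBall_subset_ball (by show ε / 2 < ε; linarith)).trans hball
  set θ₀ : R4 → Bil := fun y => f y • kform (viewJ J c y) with hθ₀
  have hts : tsupport θ₀ ⊆ c.target :=
    (tsupport_smul_subset_left (⇑f) fun y => kform (viewJ J c y)).trans hfsub
  have hsm : ContDiff ℝ ∞ θ₀ := by
    refine contDiff_iff_contDiffAt.2 fun y => ?_
    by_cases hy : y ∈ c.target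
    · exact f.contDiff.contDiffAt.smul (ContDiffAt.comp y contDiff_kform.contDiffAt
        ((smooth_viewJ hJ hc).contDiffAt (c.open_target.mem_nhds hy)))
    · exact cdAt_zero (notMem_tsupport_iff_eventuallyEq.1 fun h => hy (hts h))
  have halt : ∀ y, IsAlt (θ₀ y) := fun y => isAlt_smul (isAlt_kform _) _
  have hcs : HasCompactSupport θ₀ := f.hasCompactSupport.smul_right
  refine ⟨push2 c θ₀, (push2_smooth hc halt hsm hcs hts).1, fun x u v => ?_, fun x v => ?_,
    c.source ∩ c ⁻¹' Metric.ball (c x₀) (ε / 4), ?_, fun x hx v hv => ?_⟩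
  · by_cases hx : x ∈ c.source
    · rw [push2_pos _ hx]
      simp only [pullBil_apply, dchart_J J hc hx, hθ₀, smul_apply,
        kform_inv (viewJ_sq hJ hc (c.map_source hx))]
    · simp [push2, hx]
  · by_cases hx : x ∈ c.source
    · rw [push2_pos _ hx]
      simp only [pullBil_apply, dchart_J J hc hx, hθ₀, smul_apply, smul_eq_mul]
      refine mul_nonneg f.nonneg ?_
      rcases eq_or_ne (dchart c x v) 0 with h | h
      · simp [h]
      · exact (kform_pos (viewJ_sq hJ hc (c.map_source hx)) h).le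
    · simp [push2, hx]
  · exact inter_mem (c.open_source.mem_nhds hx₀)
      ((c.continuousAt hx₀).preimage_mem_nhds (Metric.ball_mem_nhds _ (by linarith)))
  · rw [push2_pos _ hx.1]
    simp only [pullBil_apply, dchart_J J hc hx.1, hθ₀, smul_apply, smul_eq_mul]
    refine mul_pos ?_ (kform_pos (viewJ_sq hJ hc (c.map_source hx.1)) (dchart_ne_zero hc hx.1 hv))
    rw [f.one_of_mem_closedBall (Metric.ball_subset_closedBall hx.2)]
    exact one_pos

lemma exists_positive_form [CompactSpace X] {J : X → Endo} (hJ : IsAlmostComplex (X := X) J) :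
    ∃ θ : X → Bil, Smooth2 θ ∧ (∀ x u v, θ x (J x u) (J x v) = θ x u v) ∧
      ∀ (x : X) (v : R4), v ≠ 0 → 0 < θ x v (J x v) := by
  choose θ hsm hinv hnn U hU hpos using fun x => exists_local_form (X := X) hJ x
  obtain ⟨t, -, ht⟩ := isCompact_univ.elim_nhds_subcover U fun x _ => hU x
  refine ⟨∑ i ∈ t, θ i, Finset.sum_induction _ Smooth2 (fun _ _ => Smooth2.add) Smooth2.zero
    fun i _ => hsm i, fun x u v => ?_, fun x v hv => ?_⟩
  · simp only [Finset.sum_apply, sum_apply]
    exact Finset.sum_congr rfl fun i _ => hinv i x u v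
  · simp only [Finset.sum_apply, sum_apply]
    obtain ⟨i, hi, hxi⟩ : ∃ i ∈ t, x ∈ U i := by
      simpa using ht (mem_univ x)
    exact Finset.sum_pos' (fun k _ => hnn k x v) ⟨i, hi, hpos i x hxi v hv⟩

omit [T2Space X] in
/-- A positive invariant form is nondegenerate in every chart. -/
lemma top22_view_ne_zero {J : X → Endo} {θ : X → Bil} (hθ : Smooth2 θ)
    (hpos : ∀ (x : X) (v : R4), v ≠ 0 → 0 < θ x v (J x v))
    {c : OpenPartialHomeomorph X R4} (hc : Atl c) {y : R4} (hy : y ∈ c.target) :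
    top22 (view2 c θ y) (view2 c θ y) ≠ 0 := by
  refine top22_ne_zero (isAlt_pullBil (hθ.1 _) _) fun v hv => ⟨viewJ J c y v, ?_⟩
  have h : dsymm c y (viewJ J c y v) = J (c.symm y) (dsymm c y v) :=
    DFunLike.congr_fun (dsymm_viewJ J hc hy) v
  rw [view2, pullBil_apply, h]
  exact (hpos _ _ (dsymm_ne_zero hc hy hv)).ne'

/-! ### Rescaled charts -/

/-- The diagonal map with entries `σ, 1, 1, 1`. -/
def flip0 (σ : ℝ) : Endo :=
  ContinuousLinearMap.id ℝ R4 + (σ - 1) • (EuclideanSpace.proj (0 : Fin 4)).smulRight (bvec 0)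

lemma flip0_apply (σ : ℝ) (v : R4) (i : Fin 4) :
    flip0 σ v i = if i = 0 then σ * v i else v i := by
  by_cases h : i = 0
  · subst h; simp [flip0, bvec]; ring
  · simp [flip0, bvec, h]

lemma flip0_sq {σ : ℝ} (h : σ * σ = 1) (v : R4) : flip0 σ (flip0 σ v) = v := by
  ext i
  simp only [flip0_apply]
  split_ifs
  · rw [← mul_assoc, h, one_mul]
  · rfl

lemma norm_flip0 {σ : ℝ} (h : σ * σ = 1) (v : R4) : ‖flip0 σ v‖ = ‖v‖ := by
  rw [EuclideanSpace.norm_eq, EuclideanSpace.norm_eq]
  congr 1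
  refine Finset.sum_congr rfl fun i _ => ?_
  simp only [flip0_apply]
  split_ifs
  · rw [Real.norm_eq_abs, Real.norm_eq_abs, sq_abs, sq_abs, mul_pow, sq σ, h, one_mul]
  · rfl

lemma flip0_bvec (σ : ℝ) (i : Fin 4) :
    flip0 σ (bvec i) = (if i = 0 then σ else 1) • bvec i := by
  ext j
  rw [flip0_apply]
  by_cases hij : i = j
  · subst hij; split_ifs <;> simp [bvec]
  · split_ifs <;> simp [bvec, Ne.symm hij]

lemma top22_scale (σ r : ℝ) (b : Bil) :
    top22 (pullBil (r • flip0 σ) b) (pullBil (r • flip0 σ) b) = σ * r ^ 4 * top22 b b := by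
  simp [top22, flip0_bvec, map_smul]
  ring

omit [T2Space X] in
/-- An oriented chart around every point with target the ball of radius four. -/
lemma exists_chart {θ : X → Bil} {J : X → Endo} (hθ : Smooth2 θ)
    (hpos : ∀ (x : X) (v : R4), v ≠ 0 → 0 < θ x v (J x v)) (x₀ : X) :
    ∃ c : OpenPartialHomeomorph X R4, Atl c ∧ c.target = Metric.ball 0 4 ∧
      (∀ y ∈ c.target, 0 < top22 (view2 c θ y) (view2 c θ y)) ∧ x₀ ∈ c.source ∧ c x₀ = 0 := by
  set k := chartAt R4 x₀ with hkdef
  have hk : Atl k := atl_chartAt x₀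
  have hx₀ : x₀ ∈ k.source := mem_chart_source R4 x₀
  set y₀ := k x₀ with hy₀
  obtain ⟨ε, hε, hball⟩ := Metric.isOpen_iff.1 k.open_target y₀ (k.map_source hx₀)
  set T : R4 → ℝ := fun y => top22 (view2 k θ y) (view2 k θ y) with hT
  set σ : ℝ := if 0 < T y₀ then 1 else -1 with hσ
  have hσ2 : σ * σ = 1 := by rw [hσ]; split_ifs <;> norm_num
  have hT0 : ∀ y ∈ k.target, T y ≠ 0 := fun y hy => top22_view_ne_zero hθ hpos hk hy
  have hsign : ∀ y ∈ Metric.ball y₀ ε, 0 < σ * T y := by
    intro y hy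
    have hcont : ContinuousOn (fun z => σ * T z) (Metric.ball y₀ ε) := by
      have h : ContinuousOn (view2 k θ) k.target := (smooth_view2 hθ hk).continuousOn
      refine ContinuousOn.mono ?_ hball
      have hij : ∀ i j, ContinuousOn (fun z => view2 k θ z (bvec i) (bvec j)) k.target :=
        fun i j => (h.clm_apply continuousOn_const).clm_apply continuousOn_const
      simp only [hT, top22]
      fun_prop (disch := assumption)
    have h0 : 0 < σ * T y₀ := by
      rcases (hT0 y₀ (k.map_source hx₀)).lt_or_gt with h | h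
      · rw [hσ, if_neg (not_lt.2 h.le)]; linarith
      · rw [hσ, if_pos h]; linarith
    by_contra! hneg
    obtain ⟨z, hz, hz0⟩ := (convex_ball y₀ ε).isPreconnected.intermediate_value hy
      (Metric.mem_ball_self hε) hcont ⟨hneg, h0.le⟩
    exact hT0 z (hball hz) (by
      rcases mul_eq_zero.1 hz0 with h | h
      · rw [h] at hσ2; norm_num at hσ2
      · exact h)
  set r : ℝ := ε / 4 with hr
  have hr0 : 0 < r := by positivity
  let A : R4 ≃ₜ R4 :=
    { toFun := fun y => r⁻¹ • flip0 σ (y - y₀)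
      invFun := fun z => y₀ + (r • flip0 σ) z
      left_inv := fun y => by
        simp [map_smul, flip0_sq hσ2, smul_smul, inv_mul_cancel₀ hr0.ne']
      right_inv := fun z => by
        simp [map_smul, flip0_sq hσ2, smul_smul, inv_mul_cancel₀ hr0.ne']
      continuous_toFun := by fun_prop
      continuous_invFun := by fun_prop }
  have hA : ∀ y, ‖A y‖ = r⁻¹ * ‖y - y₀‖ := fun y => by
    show ‖r⁻¹ • flip0 σ (y - y₀)‖ = _
    rw [norm_smul, norm_flip0 hσ2, norm_inv, Real.norm_of_nonneg hr0.le]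
  let B := A.toOpenPartialHomeomorph.restrOpen (Metric.ball y₀ ε) Metric.isOpen_ball
  have hBG : B ∈ contDiffGroupoid ∞ 𝓘(ℝ, R4) := by
    rw [contDiffGroupoid, mem_groupoid_of_pregroupoid]
    constructor
    · exact ((by fun_prop : ContDiff ℝ ∞ fun y => r⁻¹ • flip0 σ (y - y₀)).contDiffOn).congr
        fun y _ => rfl
    · exact ((by fun_prop : ContDiff ℝ ∞ fun y => y₀ + (r • flip0 σ) y).contDiffOn).congr
        fun y _ => rfl
  have htgt : (k ≫ₕ B).target = Metric.ball 0 4 := by
    ext z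
    simp only [OpenPartialHomeomorph.trans_target, B, OpenPartialHomeomorph.restrOpen,
      mem_inter_iff, mem_preimage, Metric.mem_ball, dist_zero_right]
    have hz : ‖z‖ = r⁻¹ * ‖A.symm z - y₀‖ := by rw [← hA, A.apply_symm_apply]
    have hiff : A.symm z ∈ Metric.ball y₀ ε ↔ ‖z‖ < 4 := by
      rw [Metric.mem_ball, dist_eq_norm, hz, inv_mul_lt_iff₀ hr0]
      constructor <;> intro h <;> linarith
    constructor
    · intro h; exact hiff.1 (by simpa using h.1)
    · intro h; exact ⟨by simpa using hiff.2 h, hball (by simpa using hiff.2 h)⟩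
  have hatl : Atl (k ≫ₕ B) := by
    intro e he
    obtain ⟨h1, h2⟩ := hk e he
    refine ⟨?_, ?_⟩
    · rw [OpenPartialHomeomorph.trans_symm_eq_symm_trans_symm, OpenPartialHomeomorph.trans_assoc]
      exact (contDiffGroupoid ∞ 𝓘(ℝ, R4)).trans ((contDiffGroupoid ∞ 𝓘(ℝ, R4)).symm hBG) h1
    · rw [← OpenPartialHomeomorph.trans_assoc]
      exact (contDiffGroupoid ∞ 𝓘(ℝ, R4)).trans h2 hBG
  refine ⟨k ≫ₕ B, hatl, htgt, fun z hz => ?_, ?_, ?_⟩
  · have hzb : A.symm z ∈ Metric.ball y₀ ε := by
      simpa [OpenPartialHomeomorph.trans_target, B, OpenPartialHomeomorph.restrOpen] using hz.1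
    have htd : ∀ w ∈ (k ≫ₕ B).target, w ∈ tdom (k ≫ₕ B) k := fun w hw =>
      ⟨hw, ((k ≫ₕ B).map_target hw).1⟩
    have htr : trans (k ≫ₕ B) k =ᶠ[𝓝 z] fun w => y₀ + (r • flip0 σ) w := by
      refine Filter.eventually_of_mem ((k ≫ₕ B).open_target.mem_nhds hz) fun w hw => ?_
      show k (k.symm (A.symm w)) = _
      rw [k.right_inv]
      · rfl
      · exact hw.2
    have hd : dtrans (k ≫ₕ B) k z = r • flip0 σ := by
      rw [dtrans, htr.fderiv_eq, fderiv_const_add, ContinuousLinearMap.fderiv]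
    rw [view2_trans hatl hk θ (htd z hz), hd, htr.eq_of_nhds, top22_scale]
    have := hsign (A.symm z) hzb
    rw [mul_comm σ, mul_assoc]
    exact mul_pos (pow_pos hr0 4) this
  · exact ⟨hx₀, by simpa [B, OpenPartialHomeomorph.restrOpen, ← hy₀] using hε⟩
  · show A (k x₀) = 0
    simp [A, hy₀]

/-- Every almost complex structure on a closed manifold extends to geometric data. -/
theorem geo : GeoStatement.{u} := by
  intro X _ _ _ _ _ J hJ
  obtain ⟨θ, hθ, hinv, hpos⟩ := exists_positive_form (X := X) hJ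
  choose c hatl htgt hor hsrc hzero using exists_chart (X := X) hθ hpos
  obtain ⟨t, -, ht⟩ := isCompact_univ.elim_nhds_subcover
    (fun x => (c x).source ∩ c x ⁻¹' Metric.closedBall 0 1) fun x _ =>
      inter_mem ((c x).open_source.mem_nhds (hsrc x))
        (((c x).continuousAt (hsrc x)).preimage_mem_nhds
          (by rw [hzero x]; exact Metric.closedBall_mem_nhds _ one_pos))
  refine ⟨{ J := J, J_acs := hJ, omega := θ, omega_smooth := hθ, omega_inv := hinv,
            omega_pos := hpos, n := t.card, c := fun i => c (t.equivFin.symm i)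
            c_mem := fun i => hatl _, c_target := fun i => htgt _
            c_cover := fun x => ?_, c_oriented := fun i => hor _ }, fun x => rfl⟩
  obtain ⟨a, ha, hxa⟩ : ∃ a ∈ t, x ∈ (c a).source ∩ c a ⁻¹' Metric.closedBall 0 1 := by
    obtain ⟨a, ha⟩ := mem_iUnion.1 (ht (mem_univ x))
    obtain ⟨ha, hxa⟩ := mem_iUnion.1 ha
    exact ⟨a, ha, hxa⟩
  refine ⟨t.equivFin ⟨a, ha⟩, ?_⟩
  simpa using hxa

end Vale.Agent.P204.Full.Bridge
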