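import Vale.Agent.P204.Full.Base.Fields

/-!
# P204 Geo: the invariant form of a complex structure and nondegeneracy of positive forms
-/

open scoped Manifold ContDiff RealInnerProductSpace
open Set

noncomputable section

namespace Vale.Agent.P204.Full.Bridge

/-- The inner product as a bilinear form. -/
def dot : R4 →L[ℝ] Cov := innerSL ℝ

/-- `(u, v) ↦ ⟨J u, v⟩ - ⟨u, J v⟩`, invariant and positive on the lines of `J`. -/
def kform (J : Endo) : Bil :=
  let L : Bil := (dot).comp J
  L - L.flip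

lemma kform_apply (J : Endo) (u v : R4) : kform J u v = ⟪J u, v⟫ - ⟪J v, u⟫ := rfl

lemma isAlt_kform (J : Endo) : IsAlt (kform J) := fun u v => by
  simp only [kform_apply, neg_sub]

lemma kform_inv {J : Endo} (hJ : ∀ v, J (J v) = -v) (u v : R4) :
    kform J (J u) (J v) = kform J u v := by
  simp only [kform_apply, hJ, inner_neg_left]
  rw [real_inner_comm u, real_inner_comm v]
  ring

lemma kform_pos {J : Endo} (hJ : ∀ v, J (J v) = -v) {v : R4} (hv : v ≠ 0) :
    0 < kform J v (J v) := by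
  simp only [kform_apply, hJ, inner_neg_left, sub_neg_eq_add]
  have h1 : 0 ≤ ⟪J v, J v⟫ := real_inner_self_nonneg
  have h2 : 0 < ⟪v, v⟫ := real_inner_self_pos.2 hv
  linarith

lemma contDiff_kform : ContDiff ℝ ∞ kform := by
  rw [contDiff_clm_apply_iff]
  intro u
  rw [contDiff_clm_apply_iff]
  intro v
  simp only [kform_apply]
  exact ((contDiff_id.clm_apply contDiff_const).inner ℝ contDiff_const).sub
    ((contDiff_id.clm_apply contDiff_const).inner ℝ contDiff_const)

lemma eq_sum_bvec (v : R4) :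
    v = v 0 • bvec 0 + v 1 • bvec 1 + v 2 • bvec 2 + v 3 • bvec 3 := by
  ext i
  fin_cases i <;> simp [bvec]

lemma bvec_self (i : Fin 4) : bvec i i = 1 := by simp [bvec]

lemma bvec_ne {i j : Fin 4} (h : i ≠ j) : bvec i j = 0 := by simp [bvec, h.symm]

/-- An alternating form without kernel has nonzero square. -/
lemma top22_ne_zero {b : Bil} (hb : IsAlt b) (hker : ∀ v, v ≠ 0 → ∃ w, b v w ≠ 0) :
    top22 b b ≠ 0 := by
  intro h0
  set a01 := b (bvec 0) (bvec 1) with h01
  set a02 := b (bvec 0) (bvec 2) with h02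
  set a03 := b (bvec 0) (bvec 3) with h03
  set a12 := b (bvec 1) (bvec 2) with h12
  set a13 := b (bvec 1) (bvec 3) with h13
  set a23 := b (bvec 2) (bvec 3) with h23
  have hd : ∀ i, b (bvec i) (bvec i) = 0 := fun i => by linarith [hb (bvec i) (bvec i)]
  have e10 : b (bvec 1) (bvec 0) = -a01 := hb _ _
  have e20 : b (bvec 2) (bvec 0) = -a02 := hb _ _
  have e30 : b (bvec 3) (bvec 0) = -a03 := hb _ _
  have e21 : b (bvec 2) (bvec 1) = -a12 := hb _ _
  have e31 : b (bvec 3) (bvec 1) = -a13 := hb _ _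
  have e32 : b (bvec 3) (bvec 2) = -a23 := hb _ _
  have hpf : a01 * a23 - a02 * a13 + a03 * a12 = 0 := by
    simp only [top22, ← h01, ← h02, ← h03, ← h12, ← h13, ← h23] at h0
    linarith
  -- a vector killed by `b` is zero
  have kill : ∀ c0 c1 c2 c3 : ℝ,
      (∀ j, c0 * b (bvec 0) (bvec j) + c1 * b (bvec 1) (bvec j) + c2 * b (bvec 2) (bvec j) +
        c3 * b (bvec 3) (bvec j) = 0) → c0 = 0 ∧ c1 = 0 ∧ c2 = 0 ∧ c3 = 0 := by
    intro c0 c1 c2 c3 hc
    set v : R4 := c0 • bvec 0 + c1 • bvec 1 + c2 • bvec 2 + c3 • bvec 3 with hv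
    have hv0 : v = 0 := by
      by_contra hne
      obtain ⟨w, hw⟩ := hker v hne
      refine hw ?_
      have hj : ∀ j, b v (bvec j) = 0 := fun j => by
        rw [hv]
        simpa [map_add, map_smul] using hc j
      rw [eq_sum_bvec w]
      simp [map_add, map_smul, hj]
    have hi : ∀ i, v i = 0 := fun i => by rw [hv0]; rfl
    have := hi 0; have := hi 1; have := hi 2; have := hi 3
    simp [hv, bvec] at *
    exact ⟨by assumption, by assumption, by assumption, by assumption⟩
  obtain ⟨-, q1, q2, q3⟩ := kill 0 a23 (-a13) a12 (fun j => by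
    fin_cases j <;> simp [hd, e10, e20, e30, e21, e31, e32, ← h01, ← h02, ← h03, ← h12, ← h13,
      ← h23] <;> linarith)
  have q13 : a13 = 0 := by linarith
  obtain ⟨-, -, r2, r3⟩ := kill a23 0 (-a03) a02 (fun j => by
    fin_cases j <;> simp [hd, e10, e20, e30, e21, e31, e32, ← h01, ← h02, ← h03, ← h12, ← h13,
      ← h23] <;> linarith)
  obtain ⟨-, -, -, s3⟩ := kill a13 (-a03) 0 a01 (fun j => by
    fin_cases j <;> simp [hd, e10, e20, e30, e21, e31, e32, ← h01, ← h02, ← h03, ← h12, ← h13,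
      ← h23] <;> linarith)
  obtain ⟨w, hw⟩ := hker (bvec 0) (fun h => by simpa [bvec] using congrArg (fun z : R4 => z 0) h)
  refine hw ?_
  rw [eq_sum_bvec w]
  simp [map_add, map_smul, hd, ← h01, ← h02, ← h03, s3, r3, neg_eq_zero.1 r2]

end Vale.Agent.P204.Full.Bridge
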